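import Vale.Agent.P207.N6.Geo.Asm
import Vale.Agent.P207.N6.H547.PicOf

/-!
# P207, theorem H: the affine charts, in the words of the assembly
-/

namespace Vale.Agent.P207.N4.W.H547

/-- **(T1)** -/
theorem affP [Dim] : AffP := fun _ _ _ R => nonempty_aff R

end Vale.Agent.P207.N4.W.H547
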